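import Vale.Agent.P067.Link.Average
import Vale.Agent.P067.Final
import Vale.Agent.P067.Alg.Basic

/-! Coboundary expansion of the links from bounded contractions of the residues. -/

namespace Vale.Agent.P067

open Finset

/-- The residues of the nonempty type sets have contractions of bounded size once the prime is
large. -/
def ResidueContractStatement : Prop :=
  ∀ n : ℕ, ∃ C P : ℕ, ∀ p : ℕ, ∀ _ : Fact p.Prime, P ≤ p →
    ∀ S : Finset (Fin n), S.Nonempty →
      Contract (fun U (x y : ↥(K n p S)) =>
        cosetRel (fun T => (K n p T).subgroupOf (K n p S)) (S ∪ U) x y) (univ \ S) C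

/-- Coboundary expansion of the links from the contractions. -/
theorem linkStatement_of_contract (h : ResidueContractStatement) : LinkStatement := by
  intro d
  refine ⟨d + 2, fun n hn => ?_⟩
  obtain ⟨C, P, hC⟩ := h n
  refine ⟨2 ^ n * C, P, fun p hp hP S hS m hm f hf hSf => ?_⟩
  have := finite_K (n := n) (p := p) hS
  obtain ⟨g, hg, hgS, hmass⟩ := Link.expands_of_contract
    (fun T => (K n p T).subgroupOf (K n p S)) (hC p hp hP S hS) (m := m)
    (by rw [Fintype.card_fin]; omega) hf hSf
  exact ⟨g, hg, hgS, by simpa using hmass⟩

end Vale.Agent.P067
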