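import Vale.Agent.P067.Z.Contract

/-! Averaging a bounded contraction of a residue over the group gives coboundary expansion. -/

namespace Vale.Agent.P067.Link

open Finset

variable {ι G : Type*} [DecidableEq ι] [Group G]

theorem cosetRel_mul_left {K : Finset ι → Subgroup G} {T : Finset ι} {x y : G} (a : G)
    (h : cosetRel K T x y) : cosetRel K T (a * x) (a * y) := by
  show (a * x)⁻¹ * (a * y) ∈ K T
  rwa [mul_inv_rev, mul_assoc, inv_mul_cancel_left]

theorem sum_list_le {α : Type*} (l : List α) (s : Finset G) (f : α → G → ℕ) (b : ℕ)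
    (hb : ∀ e, ∑ a ∈ s, f e a ≤ b) :
    ∑ a ∈ s, (l.map fun e => f e a).sum ≤ l.length * b := by
  induction l with
  | nil => simp
  | cons e l ih =>
    simp only [List.map_cons, List.sum_cons, sum_add_distrib, List.length_cons, Nat.succ_mul]
    exact (add_le_add (hb e) ih).trans (le_of_eq (add_comm _ _))

/-- A contraction of the residue of `S` with at most `C` terms per face gives expansion of the
cochains above `S` with constant `2 ^ card ι * C`. -/
theorem expands_of_contract [Fintype ι] [Finite G] (K : Finset ι → Subgroup G) {S : Finset ι}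
    {C : ℕ} (hH : Contract (fun U x y => cosetRel K (S ∪ U) x y) (univ \ S) C) {m : ℕ}
    (hm : m < Fintype.card ι) {h : Finset ι → G → ZMod 2} (hh : IsCochain (cosetRel K) m h)
    (hS : Above S h) :
    ∃ g, IsCochain (cosetRel K) (m - 1) g ∧ Above S g ∧
      mass (h + delta g) ≤ 2 ^ Fintype.card ι * C * mass (delta h) := by
  classical
  have := Fintype.ofFinite G
  obtain ⟨H, hH1, hH2, hH3⟩ := hH
  set R' := fun (U : Finset ι) (x y : G) => cosetRel K (S ∪ U) x y with hR'
  set tr : G → Finset ι → G → ZMod 2 := fun a U z => h (S ∪ U) (a * z) with htr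
  have htrinv : ∀ a, Invariant R' (tr a) := fun a U x y hxy => hh.2 _ _ _ (cosetRel_mul_left a hxy)
  set g : G → Finset ι → G → ZMod 2 := fun a T x =>
    if 0 < m ∧ S ⊆ T ∧ T.card = m - 1 then cone H (tr a) (T \ S) (a⁻¹ * x) else 0 with hg
  have hgc : ∀ a, IsCochain (cosetRel K) (m - 1) (g a) ∧ Above S (g a) := by
    refine fun a => ⟨⟨fun T x hT => if_neg fun hc => hT hc.2.2, fun T x y hxy => ?_⟩,
      fun T x hT => if_neg fun hc => hT hc.2.1⟩
    simp only [hg]
    split_ifs with hc
    · refine hH2 _ (htrinv a) _ _ _ ?_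
      show cosetRel K (S ∪ T \ S) _ _
      rw [union_sdiff_of_subset hc.2.1]
      exact cosetRel_mul_left _ hxy
    · rfl
  have hdtr : ∀ a U, U ⊆ univ \ S → ∀ z, delta (tr a) U z = delta h (S ∪ U) (a * z) := by
    intro a U hU z
    have hdis : Disjoint S U := disjoint_left.2 fun t ht ht' => (mem_sdiff.1 (hU ht')).2 ht
    rw [delta, delta, sum_union hdis, sum_eq_zero fun t ht => hS _ _ fun hsub =>
      notMem_erase t _ (hsub ht), zero_add]
    refine sum_congr rfl fun t ht => ?_
    rw [erase_union_distrib, erase_eq_of_notMem (disjoint_right.1 hdis ht)]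
  set D := delta h with hD
  set ind : Finset ι × G → G → ℕ := fun e a => if D (S ∪ e.1) (a * e.2) ≠ 0 then 1 else 0
  set cost : G → Finset ι → G → ℕ := fun a T x =>
    ((H (T \ S) (a⁻¹ * x)).map fun e => ind e a).sum
  have hpt : ∀ a T x, (h + delta (g a)) T x ≠ 0 → 1 ≤ cost a T x := by
    intro a T x hne
    by_cases hT : S ⊆ T
    swap
    · refine absurd ?_ hne
      rw [Pi.add_apply, Pi.add_apply, hS T x hT, zero_add, delta]
      exact sum_eq_zero fun t _ => (hgc a).2 _ _ fun hsub => hT (hsub.trans (erase_subset t T))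
    by_cases hc : T.card = m
    swap
    · refine absurd ?_ hne
      rw [Pi.add_apply, Pi.add_apply, hh.1 T x hc, zero_add, delta]
      refine sum_eq_zero fun t ht => ?_
      refine if_neg fun hx => ?_
      rw [card_erase_of_mem ht] at hx
      have := card_pos.2 ⟨t, ht⟩
      omega
    set U := T \ S with hU
    have hUA : U ⊆ univ \ S := sdiff_subset_sdiff (subset_univ T) subset_rfl
    have hUc : U.card < (univ \ S).card := by
      rw [card_sdiff_of_subset hT, card_sdiff_of_subset (subset_univ S), card_univ, hc]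
      have := card_le_card hT
      omega
    have hid := hH3 _ (htrinv a) U hUA hUc (a⁻¹ * x)
    have e1 : delta (g a) T x = delta (cone H (tr a)) U (a⁻¹ * x) := by
      rw [delta, delta, ← sum_sdiff hT, sum_eq_zero (s := S) fun t ht => (hgc a).2 _ _ fun hsub =>
        notMem_erase t _ (hsub ht), add_zero]
      refine sum_congr rfl fun t ht => ?_
      have htS : t ∉ S := (mem_sdiff.1 ht).2
      rw [hg]
      simp only
      rw [if_pos ⟨hc ▸ card_pos.2 ⟨t, (mem_sdiff.1 ht).1⟩, fun s hs => mem_erase.2 ⟨fun he => htS (he ▸ hs), hT hs⟩,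
        by rw [card_erase_of_mem (mem_sdiff.1 ht).1, hc]⟩, hU, erase_sdiff_comm]
    have e2 : h T x = tr a U (a⁻¹ * x) := by
      simp only [htr, hU, union_sdiff_of_subset hT, mul_inv_cancel_left]
    have e3 : (h + delta (g a)) T x = cone H (delta (tr a)) U (a⁻¹ * x) := by
      rw [Pi.add_apply, Pi.add_apply, e1, e2, ← hid]
      generalize delta (cone H (tr a)) U (a⁻¹ * x) = u
      generalize cone H (delta (tr a)) U (a⁻¹ * x) = v
      rw [add_comm u v, add_assoc, CharTwo.add_self_eq_zero, add_zero]
    rw [e3] at hne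
    by_contra hcon
    refine hne (List.sum_eq_zero fun b hb => ?_)
    obtain ⟨e, he, rfl⟩ := List.mem_map.1 hb
    rw [hdtr a e.1 ((hH1 _ _).2 e he).1]
    by_contra hne'
    refine hcon (le_trans (le_of_eq ?_)
      (List.single_le_sum (fun _ _ => Nat.zero_le _) _ (List.mem_map.2 ⟨e, he, rfl⟩)))
    simp only [ind]
    rw [if_pos hne']
  have hmass : ∀ a, mass (h + delta (g a)) ≤ ∑ T, ∑ x, cost a T x := by
    intro a
    rw [mass, Set.ncard_eq_toFinset_card', ← Fintype.sum_prod_type']
    refine le_trans ?_ (sum_le_univ_sum_of_nonneg (s := {b : Finset ι × G |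
      (h + delta (g a)) b.1 b.2 ≠ 0}.toFinset) fun b => Nat.zero_le _)
    rw [card_eq_sum_ones]
    exact sum_le_sum fun b hb => hpt a b.1 b.2 (Set.mem_toFinset.1 hb)
  have hind : ∀ e, ∑ a : G, ind e a ≤ mass D := by
    intro e
    simp only [ind, sum_boole, Nat.cast_id]
    rw [mass, Set.ncard_eq_toFinset_card']
    refine card_le_card_of_injOn (fun a => (S ∪ e.1, a * e.2)) (fun a ha => ?_) ?_
    · simp only [coe_filter, mem_univ, true_and, Set.mem_ofPred_eq] at ha
      simpa using ha
    · exact fun a _ b _ hab => mul_right_cancel (congrArg Prod.snd hab)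
  have htot : ∑ a : G, ∑ T, ∑ x, cost a T x ≤
      Fintype.card G * (2 ^ Fintype.card ι * C * mass D) := by
    have h1 : ∀ a T, ∑ x, cost a T x = ∑ z, ((H (T \ S) z).map fun e => ind e a).sum := fun a T =>
      (Fintype.sum_equiv (Equiv.mulLeft a⁻¹) _ _ fun x => rfl)
    simp only [h1]
    rw [sum_comm]
    refine (sum_le_card_nsmul _ _ (Fintype.card G * (C * mass D)) fun T _ => ?_).trans (le_of_eq ?_)
    · rw [sum_comm]
      refine (sum_le_card_nsmul _ _ (C * mass D) fun z _ => ?_).trans (le_of_eq ?_)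
      · exact (sum_list_le _ _ ind _ hind).trans (Nat.mul_le_mul_right _ (hH1 _ _).1)
      · rw [card_univ, smul_eq_mul]
    · rw [card_univ, Fintype.card_finset, smul_eq_mul]
      ring
  obtain ⟨a, -, ha⟩ := exists_le_of_sum_le (s := (univ : Finset G))
    (f := fun a => ∑ T, ∑ x, cost a T x) (g := fun _ => 2 ^ Fintype.card ι * C * mass D)
    univ_nonempty (by rw [sum_const, card_univ, smul_eq_mul]; exact htot)
  exact ⟨g a, (hgc a).1, (hgc a).2, (hmass a).trans ha⟩

end Vale.Agent.P067.Link
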