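import Mathlib

/-! Chains over the field with two elements on finite sets of vertices: boundary, cones, the part
at a vertex and the removal of a vertex from a cycle. -/

namespace Vale.Agent.P067.Link

variable {W : Type*}

/-- Chains. -/
abbrev Ch (W : Type*) : Type _ := Finset W →₀ ZMod 2

open Classical in
/-- The boundary. -/
noncomputable def bd : Ch W →ₗ[ZMod 2] Ch W :=
  Finsupp.linearCombination (ZMod 2) fun s => ∑ v ∈ s, Finsupp.single (s.erase v) 1

open Classical in
/-- The cone from a vertex. -/
noncomputable def cn (v : W) : Ch W →ₗ[ZMod 2] Ch W :=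
  Finsupp.linearCombination (ZMod 2) fun s =>
    if v ∈ s then 0 else Finsupp.single (insert v s) 1

open Classical in
/-- The part at a vertex. -/
noncomputable def lk (v : W) : Ch W →ₗ[ZMod 2] Ch W :=
  Finsupp.linearCombination (ZMod 2) fun s => if v ∈ s then Finsupp.single (s.erase v) 1 else 0

/-- The chains carried by a set of faces with `j` vertices. -/
def Carried (P : Finset W → Prop) (j : ℕ) (a : Ch W) : Prop :=
  ∀ s ∈ a.support, P s ∧ s.card = j

open Classical in
theorem bd_single (s : Finset W) :
    bd (Finsupp.single s 1) = ∑ v ∈ s, Finsupp.single (s.erase v) 1 := by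
  rw [bd, Finsupp.linearCombination_single, one_smul]

open Classical in
theorem cn_single (v : W) (s : Finset W) :
    cn v (Finsupp.single s 1) = if v ∈ s then 0 else Finsupp.single (insert v s) 1 := by
  rw [cn, Finsupp.linearCombination_single, one_smul]

open Classical in
theorem lk_single (v : W) (s : Finset W) :
    lk v (Finsupp.single s 1) = if v ∈ s then Finsupp.single (s.erase v) 1 else 0 := by
  rw [lk, Finsupp.linearCombination_single, one_smul]

theorem add_self_ch (a : Ch W) : a + a = 0 := by
  ext s; rw [Finsupp.add_apply, Finsupp.zero_apply]; exact CharTwo.add_self_eq_zero _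

theorem eq_one_of_mem {a : Ch W} {s : Finset W} (h : s ∈ a.support) : a s = 1 := by
  rw [Finsupp.mem_support_iff] at h
  generalize a s = c at h
  fin_cases c
  · exact absurd rfl h
  · rfl

theorem ch_eq_sum (a : Ch W) : a = ∑ s ∈ a.support, Finsupp.single s 1 := by
  conv_lhs => rw [← Finsupp.sum_single a]
  exact Finset.sum_congr rfl fun s hs => by rw [eq_one_of_mem hs]

theorem hom_eq_sum {E : Type*} [AddCommGroup E] [Module (ZMod 2) E] (φ : Ch W →ₗ[ZMod 2] E)
    (a : Ch W) : φ a = ∑ s ∈ a.support, φ (Finsupp.single s 1) := by
  conv_lhs => rw [ch_eq_sum a, map_sum]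

theorem bd_cn (v : W) (a : Ch W) : bd (cn v a) = a + cn v (bd a) := by
  suffices h : (bd : Ch W →ₗ[ZMod 2] _).comp (cn v) = LinearMap.id + (cn v).comp bd from
    LinearMap.congr_fun h a
  classical
  refine Finsupp.lhom_ext' fun s => LinearMap.ext_ring ?_
  simp only [LinearMap.comp_apply, Finsupp.lsingle_apply, LinearMap.add_apply, LinearMap.id_apply,
    cn_single, bd_single, map_sum]
  by_cases hv : v ∈ s
  · rw [if_pos hv, map_zero, ← Finset.add_sum_erase _ _ hv, if_neg (Finset.notMem_erase v s),
      Finset.insert_erase hv, ← add_assoc, add_self_ch, zero_add]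
    exact (Finset.sum_eq_zero fun u hu => if_pos (Finset.mem_erase.2
      ⟨(Finset.mem_erase.1 hu).1.symm, hv⟩)).symm
  · rw [if_neg hv, bd_single, Finset.sum_insert hv, Finset.erase_insert hv]
    congr 1
    refine Finset.sum_congr rfl fun u hu => ?_
    rw [if_neg fun h => hv (Finset.mem_of_mem_erase h),
      Finset.erase_insert_of_ne (fun h : v = u => hv (h ▸ hu))]

theorem bd_bd (a : Ch W) : bd (bd a) = 0 := by
  suffices h : (bd : Ch W →ₗ[ZMod 2] _).comp bd = 0 from LinearMap.congr_fun h a
  classical
  refine Finsupp.lhom_ext' fun s => LinearMap.ext_ring ?_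
  simp only [LinearMap.comp_apply, Finsupp.lsingle_apply, LinearMap.zero_apply]
  induction s using Finset.induction_on with
  | empty => rw [bd_single]; simp
  | insert v s hv ih =>
    rw [show Finsupp.single (insert v s) (1 : ZMod 2) = cn v (Finsupp.single s 1) by
      rw [cn_single, if_neg hv], bd_cn, map_add, bd_cn, ih, map_zero, add_zero, add_self_ch]

theorem lk_bd (v : W) (a : Ch W) : lk v (bd a) = bd (lk v a) := by
  suffices h : (lk v).comp bd = (bd : Ch W →ₗ[ZMod 2] _).comp (lk v) from LinearMap.congr_fun h a
  classical
  refine Finsupp.lhom_ext' fun s => LinearMap.ext_ring ?_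
  simp only [LinearMap.comp_apply, Finsupp.lsingle_apply, lk_single, bd_single, map_sum]
  by_cases hv : v ∈ s
  · rw [if_pos hv, bd_single, ← Finset.add_sum_erase _ _ hv, if_neg (Finset.notMem_erase v s),
      zero_add]
    refine Finset.sum_congr rfl fun u hu => ?_
    rw [if_pos (Finset.mem_erase.2 ⟨(Finset.mem_erase.1 hu).1.symm, hv⟩), Finset.erase_right_comm]
  · rw [if_neg hv, map_zero]
    exact Finset.sum_eq_zero fun u _ => if_neg fun h => hv (Finset.mem_of_mem_erase h)

open Classical in
theorem add_cn_lk (v : W) (a : Ch W) : a + cn v (lk v a) = a.filter (fun s => v ∉ s) := by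
  suffices h : LinearMap.id + (cn v).comp (lk v) =
      (Finsupp.linearCombination (ZMod 2) fun s : Finset W =>
        if v ∉ s then Finsupp.single s (1 : ZMod 2) else 0) by
    have h1 := LinearMap.congr_fun h a
    rw [LinearMap.add_apply, LinearMap.id_apply, LinearMap.comp_apply] at h1
    rw [h1, Finsupp.linearCombination_apply, Finsupp.filter_eq_sum, Finsupp.sum]
    simp only [smul_ite, smul_zero, Finsupp.smul_single', mul_one, Finset.sum_ite, add_zero,
      Finset.sum_const_zero]
  refine Finsupp.lhom_ext' fun s => LinearMap.ext_ring ?_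
  simp only [LinearMap.comp_apply, Finsupp.lsingle_apply, LinearMap.add_apply, LinearMap.id_apply,
    Finsupp.linearCombination_single, one_smul, lk_single]
  by_cases hv : v ∈ s
  · rw [if_pos hv, cn_single, if_neg (Finset.notMem_erase v s), Finset.insert_erase hv,
      add_self_ch, if_neg (not_not.2 hv)]
  · rw [if_neg hv, map_zero, add_zero, if_pos hv]

open Classical in
/-- Removing a vertex from a cycle by a chain bounded by its part at that vertex. -/
theorem remove_vertex {v : W} {z e : Ch W} (he : bd e = lk v z) :
    z + bd (cn v e) = z.filter (fun s => v ∉ s) + e := by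
  rw [bd_cn, he, ← add_cn_lk v z]
  abel

theorem card_support_add (a b : Ch W) :
    (a + b).support.card ≤ a.support.card + b.support.card := by
  classical
  exact (Finset.card_le_card Finsupp.support_add).trans (Finset.card_union_le _ _)

theorem support_hom_subset {φ : Ch W →ₗ[ZMod 2] Ch W} {a : Ch W} {t : Finset W}
    (ht : t ∈ (φ a).support) : ∃ s ∈ a.support, t ∈ (φ (Finsupp.single s 1)).support := by
  classical
  by_contra h
  push Not at h
  rw [Finsupp.mem_support_iff, hom_eq_sum φ a, Finsupp.finsetSum_apply] at ht
  exact ht (Finset.sum_eq_zero fun s hs => by simpa using h s hs)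

open Classical in
theorem mem_cn [DecidableEq W] {v : W} {a : Ch W} {t : Finset W} (ht : t ∈ (cn v a).support) :
    ∃ s ∈ a.support, v ∉ s ∧ t = insert v s := by
  obtain ⟨s, hs, h⟩ := support_hom_subset ht
  rw [cn_single] at h
  split_ifs at h with hv
  · simp at h
  · refine ⟨s, hs, hv, ?_⟩
    rw [Finset.mem_singleton.1 (Finsupp.support_single_subset h)]
    ext; simp

open Classical in
theorem mem_lk [DecidableEq W] {v : W} {a : Ch W} {t : Finset W} (ht : t ∈ (lk v a).support) :
    v ∉ t ∧ insert v t ∈ a.support := by
  obtain ⟨s, hs, h⟩ := support_hom_subset ht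
  rw [lk_single] at h
  split_ifs at h with hv
  · have := Finset.mem_singleton.1 (Finsupp.support_single_subset h)
    subst this
    refine ⟨by simp, ?_⟩
    convert hs using 1
    ext x; simp only [Finset.mem_insert, Finset.mem_erase]
    exact ⟨fun h => h.elim (fun h => h ▸ hv) (·.2), fun h => (_root_.em (x = v)).imp id (⟨·, h⟩)⟩
  · simp at h

theorem card_cn (v : W) (a : Ch W) : (cn v a).support.card ≤ a.support.card := by
  classical
  rw [hom_eq_sum (cn v) a]
  refine (Finset.card_le_card Finsupp.support_finsetSum).trans
    (Finset.card_biUnion_le.trans ((Finset.sum_le_sum fun s _ => ?_).trans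
      (Finset.card_eq_sum_ones _).ge))
  rw [cn_single]
  split_ifs
  · simp
  · exact (Finset.card_le_card Finsupp.support_single_subset).trans (by simp)

theorem card_lk (v : W) (a : Ch W) : (lk v a).support.card ≤ a.support.card := by
  classical
  rw [hom_eq_sum (lk v) a]
  refine (Finset.card_le_card Finsupp.support_finsetSum).trans
    (Finset.card_biUnion_le.trans ((Finset.sum_le_sum fun s _ => ?_).trans
      (Finset.card_eq_sum_ones _).ge))
  rw [lk_single]
  split_ifs
  · exact (Finset.card_le_card Finsupp.support_single_subset).trans (by simp)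
  · simp

theorem card_filter_le (p : Finset W → Prop) [DecidablePred p] (a : Ch W) :
    (a.filter p).support.card ≤ a.support.card := by
  rw [Finsupp.support_filter]; exact Finset.card_filter_le _ _

/-- The vertices of a chain. -/
noncomputable def verts (a : Ch W) : Finset W :=
  open scoped Classical in a.support.biUnion id

theorem mem_verts {a : Ch W} {v : W} : v ∈ verts a ↔ ∃ s ∈ a.support, v ∈ s := by
  classical
  simp [verts]

open Classical in
theorem card_verts {P : Finset W → Prop} {j : ℕ} {a : Ch W}
    (h : Carried P j a) : (verts a).card ≤ j * a.support.card := by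
  refine Finset.card_biUnion_le.trans ?_
  rw [mul_comm, ← smul_eq_mul, ← Finset.sum_const]
  exact Finset.sum_le_sum fun s hs => (h s hs).2.le

end Vale.Agent.P067.Link
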