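import Vale.Agent.P067.Link.Chains

/-! Removing the vertices of a finite set from a cycle one after the other. -/

namespace Vale.Agent.P067.Link

variable {W : Type*}

/-- The sizes after repeated steps. -/
def grow (g : ℕ → ℕ) (n N : ℕ) : ℕ := (fun x => x + g x)^[n] N

theorem grow_succ (g : ℕ → ℕ) (n N : ℕ) : grow g (n + 1) N = grow g n (N + g N) :=
  Function.iterate_succ_apply _ _ _

theorem le_grow (g : ℕ → ℕ) : ∀ n N, N ≤ grow g n N
  | 0, N => le_rfl
  | n + 1, N => by
    rw [grow_succ]
    exact (Nat.le_add_right _ _).trans (le_grow g n _)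

open Classical in
/-- Repeated removal of vertices of `B` leaves a homologous cycle with vertices in `Q` only. -/
theorem clear [DecidableEq W] {Rl : Finset W → Prop} {j : ℕ} {Q : W → Prop} {B₀ : Finset W} (g : ℕ → ℕ) :
    ∀ (n N : ℕ),
      (∀ i < n, ∀ (B : Finset W) (z : Ch W), B.Nonempty → B ⊆ B₀ → Carried Rl j z → bd z = 0 →
        z.support.card ≤ grow g i N → (∀ s ∈ z.support, ∀ v ∈ s, v ∈ B ∨ Q v) →
        ∃ U ∈ B, ∃ e : Ch W, Carried Rl j e ∧ bd e = lk U z ∧
          (∀ s ∈ e.support, Rl (insert U s) ∧ ∀ v ∈ s, v ∈ B.erase U ∨ Q v) ∧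
          e.support.card ≤ g (grow g i N)) →
    ∀ (B : Finset W) (z : Ch W), B.card ≤ n → B ⊆ B₀ → Carried Rl j z → bd z = 0 →
      z.support.card ≤ N → (∀ s ∈ z.support, ∀ v ∈ s, v ∈ B ∨ Q v) →
      ∃ w : Ch W, Carried Rl (j + 1) w ∧ w.support.card + N ≤ grow g n N ∧
        Carried Rl j (z + bd w) ∧ bd (z + bd w) = 0 ∧ (z + bd w).support.card ≤ grow g n N ∧
        ∀ s ∈ (z + bd w).support, ∀ v ∈ s, Q v := by
  intro n
  induction n with
  | zero =>
    intro N _ B z hB _ hz hbd hN hv
    have hB0 : B = ∅ := Finset.card_eq_zero.1 (Nat.le_zero.1 hB)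
    refine ⟨0, fun s hs => by simp at hs, by simp [grow], ?_, ?_, ?_, ?_⟩ <;>
      simp only [map_zero, add_zero]
    · exact hz
    · exact hbd
    · exact hN
    · exact fun s hs v hv' => (hv s hs v hv').resolve_left (by simp [hB0])
  | succ n ih =>
    intro N hstep B z hB hB₀ hz hbd hN hv
    rcases B.eq_empty_or_nonempty with hB0 | hne
    · refine ⟨0, fun s hs => by simp at hs, by simpa using le_grow g _ N, ?_, ?_, ?_, ?_⟩ <;>
        simp only [map_zero, add_zero]
      · exact hz
      · exact hbd
      · exact hN.trans (le_grow g _ N)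
      · exact fun s hs v hv' => (hv s hs v hv').resolve_left (by simp [hB0])
    obtain ⟨U, hU, e, hec, hebd, hev, hen⟩ :=
      hstep 0 (Nat.succ_pos n) B z hne hB₀ hz hbd (by simpa [grow] using hN) hv
    simp only [grow, Function.iterate_zero, id_eq] at hen
    set z₁ := z.filter (fun s => U ∉ s) + e with hz₁
    have hrem : z + bd (cn U e) = z₁ := by
      rw [hz₁, remove_vertex hebd]
      congr 1
      ext s
      simp [Finsupp.filter_apply]
    have hmem : ∀ s ∈ z₁.support, s ∈ z.support ∧ U ∉ s ∨ s ∈ e.support := fun s hs => by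
      rcases Finset.mem_union.1 (Finsupp.support_add hs) with h | h
      · rw [Finsupp.support_filter, Finset.mem_filter] at h
        exact Or.inl h
      · exact Or.inr h
    obtain ⟨w, hw, hwn, h1, h2, h3, h4⟩ := ih (N + g N)
      (fun i hi B' z' => by rw [← grow_succ]; exact hstep (i + 1) (by omega) B' z')
      (B.erase U) z₁ (by rw [Finset.card_erase_of_mem hU]; omega)
      ((Finset.erase_subset _ _).trans hB₀)
      (fun s hs => (hmem s hs).elim (fun h => hz s h.1) (hec s))
      (by rw [← hrem, map_add, hbd, bd_bd, add_zero])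
      ((card_support_add _ _).trans (add_le_add ((card_filter_le _ _).trans hN) hen))
      (fun s hs v hvs => (hmem s hs).elim
        (fun h => (hv s h.1 v hvs).imp_left fun hvB =>
          Finset.mem_erase.2 ⟨fun hvU => h.2 (hvU ▸ hvs), hvB⟩)
        fun h => (hev s h).2 v hvs)
    have heq : z + bd (cn U e + w) = z₁ + bd w := by rw [map_add, ← add_assoc, hrem]
    refine ⟨cn U e + w, fun s hs => ?_, ?_, ?_, ?_, ?_, ?_⟩
    · rcases Finset.mem_union.1 (Finsupp.support_add hs) with h | h
      · obtain ⟨t, ht, hUt, rfl⟩ := mem_cn h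
        exact ⟨(hev t ht).1, by rw [Finset.card_insert_of_notMem hUt, (hec t ht).2]⟩
      · exact hw s h
    · have ha := card_support_add (cn U e) w
      have hb := (card_cn U e).trans hen
      rw [grow_succ]
      omega
    all_goals rw [heq]
    · exact h1
    · exact h2
    · rw [grow_succ]; exact h3
    · exact h4

end Vale.Agent.P067.Link
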