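import Vale.Agent.P067.Z.OppStatement

/-! Sorted chains in an interval: existence with a prescribed first step, uniqueness of the jumps,
and the replacement of a subspace by its span with a general vector. -/

namespace Vale.Agent.P067.Link

open Submodule

variable {K V : Type} [Field K] [AddCommGroup V] [Module K V] {F : Filt K V}
  {M N : ℤ → Submodule K V} {a b c d : ℤ}

/-- The jumps increase inside the interval. -/
def Incr (F : Filt K V) (M : ℤ → Submodule K V) (a b : ℤ) : Prop :=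
  ∀ e, a < e → e < b → ChainOn.jumpAt F M (e - 1) < ChainOn.jumpAt F M e

theorem Incr.sub (h : Incr F M a b) {a' b' : ℤ} (ha : a ≤ a') (hb : b' ≤ b) : Incr F M a' b' :=
  fun e h1 h2 => h e (by omega) (by omega)

theorem Incr.lt (h : Incr F M a b) {e e' : ℤ} (he : a ≤ e) (hee : e < e') (he' : e' < b) :
    ChainOn.jumpAt F M e < ChainOn.jumpAt F M e' := by
  obtain ⟨k, rfl⟩ := Int.le.dest (show e + 1 ≤ e' by omega)
  induction k with
  | zero => simpa using h (e + 1) (by omega) (by simpa using he')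
  | succ k ih =>
    refine lt_trans (ih (by omega) (by push_cast at he'; omega)) ?_
    have h1 := h (e + 1 + ((k + 1 : ℕ) : ℤ)) (by omega) he'
    push_cast at h1 ⊢
    rwa [show e + 1 + ((k : ℤ) + 1) - 1 = e + 1 + k by ring] at h1

theorem Incr.le (h : Incr F M a b) {e e' : ℤ} (he : a ≤ e) (hee : e ≤ e') (he' : e' < b) :
    ChainOn.jumpAt F M e ≤ ChainOn.jumpAt F M e' := by
  rcases eq_or_lt_of_le hee with rfl | hlt
  · exact le_rfl
  · exact (h.lt he hlt he').le

/-- Two chains with increasing jumps and the same ends have the same jumps. -/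
theorem jump_eq (hM : ChainOn M a b) (hN : ChainOn N a b) (hs : F.Sep (M a) (M b))
    (ha : N a = M a) (hb : N b = M b) (iM : Incr F M a b) (iN : Incr F N a b) {e : ℤ}
    (he : a ≤ e) (he' : e < b) : ChainOn.jumpAt F M e = ChainOn.jumpAt F N e := by
  obtain ⟨k, rfl⟩ := Int.le.dest he
  induction k using Nat.strong_induction_on with
  | _ k ih =>
    have hs' : F.Sep (N a) (N b) := by rw [ha, hb]; exact hs
    have key : ∀ {A B : ℤ → Submodule K V}, ChainOn A a b → ChainOn B a b →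
        F.Sep (A a) (A b) → F.Sep (B a) (B b) → B a = A a → B b = A b → Incr F A a b →
        Incr F B a b → (∀ m < k, ChainOn.jumpAt F A (a + m) = ChainOn.jumpAt F B (a + m)) →
        ChainOn.jumpAt F B (a + k) ≤ ChainOn.jumpAt F A (a + k) := by
      intro A B hA hB sA sB ea eb iA iB hlow
      have h1 := hA.inJumps_of_jump sA he he'
      rw [← ea, ← eb] at h1
      obtain ⟨e', h2, h3, h4⟩ := hB.exists_jump_of_inJumps sB (by omega) h1
      rcases lt_or_ge e' (a + k) with hlt | hge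
      · obtain ⟨m, rfl⟩ := Int.le.dest h2
        have h5 := hlow m (by omega)
        rw [h4] at h5
        have := hA.jump_inj sA (by omega) h3 he he' h5
        omega
      · rw [← h4]; exact iB.le he hge h3
    exact le_antisymm
      (key hN hM hs' hs ha.symm hb.symm iN iM fun m hm => (ih m hm (by omega) (by omega)).symm)
      (key hM hN hs hs' ha hb iM iN fun m hm => ih m hm (by omega) (by omega))

theorem sup_span_eq {A B : Submodule K V} (h : A ⋖ B) {v : V} (hv : v ∈ B) (hv' : v ∉ A) :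
    A ⊔ (K ∙ v) = B := by
  have h1 : A < A ⊔ (K ∙ v) := left_lt_sup.2 fun hle => hv' (hle (mem_span_singleton_self v))
  have h2 : A ⊔ (K ∙ v) ≤ B := sup_le h.le ((span_singleton_le_iff_mem _ _).2 hv)
  exact (h.eq_or_eq h1.le h2).resolve_left h1.ne'

/-- A chain through the span of the bottom and a given vector. -/
theorem insert_chain (h : ChainOn M a b) (hab : a ≤ b) {v : V} (hv : v ∈ M b) (hv' : v ∉ M a) :
    ∃ N, ChainOn N a b ∧ N a = M a ∧ N b = M b ∧ N (a + 1) = M a ⊔ (K ∙ v) := by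
  classical
  obtain ⟨f, ⟨hfa, hfv⟩, hmin⟩ := Int.exists_least_of_bdd (P := fun e => a ≤ e ∧ v ∈ M e)
    ⟨a, fun z hz => hz.1⟩ ⟨b, hab, hv⟩
  have hfb : f ≤ b := hmin b ⟨hab, hv⟩
  have haf : a < f := lt_of_le_of_ne hfa fun he => hv' (he ▸ hfv)
  have hlow : ∀ e, a ≤ e → e < f → v ∉ M e := fun e h1 h2 hve =>
    absurd (hmin e ⟨h1, hve⟩) (not_le.2 h2)
  set N : ℤ → Submodule K V := fun e => if a < e ∧ e < f then M (e - 1) ⊔ (K ∙ v) else M e
    with hN
  have hsucc : ∀ e, a ≤ e → e < f → N (e + 1) = M e ⊔ (K ∙ v) := by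
    intro e h1 h2
    by_cases h3 : e + 1 < f
    · simp only [hN]; rw [if_pos ⟨by omega, h3⟩, show e + 1 - 1 = e by ring]
    · have hef : e + 1 = f := by omega
      simp only [hN]; rw [if_neg fun h => h3 h.2]
      exact (sup_span_eq (h e h1 (by omega)) (by rw [hef]; exact hfv) (hlow e h1 h2)).symm
  have hout : ∀ e, ¬ (a < e ∧ e < f) → N e = M e := fun e he => if_neg he
  refine ⟨N, fun e h1 h2 => ?_, hout a (by omega), hout b (by omega), hsucc a le_rfl haf⟩
  by_cases hef : e < f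
  · rw [hsucc e h1 hef]
    rcases eq_or_lt_of_le h1 with rfl | hae
    · rw [hout a (by omega), sup_comm]
      exact covBy_span_singleton_sup hv'
    · have hNe : N e = M (e - 1) ⊔ (K ∙ v) := by
        have := hsucc (e - 1) (by omega) (by omega)
        rwa [sub_add_cancel] at this
      have hcv := h (e - 1) (by omega) (by omega)
      rw [sub_add_cancel] at hcv
      obtain ⟨w, hw, hw'⟩ := SetLike.exists_of_lt hcv.lt
      have hspan := sup_span_eq hcv hw hw'
      rw [hNe, ← hspan, sup_right_comm, sup_comm _ (K ∙ w)]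
      refine covBy_span_singleton_sup fun hmem => ?_
      have hle : M e ≤ M (e - 1) ⊔ (K ∙ v) := by
        rw [← hspan]; exact sup_le le_sup_left ((span_singleton_le_iff_mem _ _).2 hmem)
      have h5 := covBy_span_singleton_sup (hlow (e - 1) (by omega) (by omega))
      rw [sup_comm] at h5
      rcases h5.eq_or_eq hcv.le hle with h6 | h6
      · exact hw' (h6 ▸ hw)
      · exact hlow e h1 hef (h6 ▸ mem_sup_right (mem_span_singleton_self v))
  · rw [hout e (by omega), hout (e + 1) (by omega)]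
    exact h e h1 h2

/-- The part of the top below a jump, enlarged by a bottom, misses a vector of that step. -/
theorem exists_general (h : ChainOn M a b) (hs : F.Sep (M a) (M b)) {c : ℤ} (hc : a ≤ c)
    (hc' : c < b) : ∃ w ∈ M b, w ∉ M c ⊔ (M b ⊓ F.Q (ChainOn.jumpAt F M c + 1)) := by
  obtain ⟨w, hw, -, hwA, -⟩ := Filt.exists_jump_elem (h c hc hc') (h.sep hs hc hc')
  refine ⟨w, h.le (by omega) (by omega) le_rfl hw, fun hmem => hwA ?_⟩
  obtain ⟨u, hu, q, hq, huq⟩ := mem_sup.1 hmem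
  have hq' : q ∈ M (c + 1) := by
    rw [eq_sub_of_add_eq' huq]; exact sub_mem hw ((h c hc hc').le hu)
  rw [← huq]
  exact add_mem hu
    ((Filt.isJump_jump (h c hc hc') (h.sep hs hc hc')).2 ⟨hq', hq.2⟩)

/-- Replace an interval of a chain. -/
def splice (M N : ℤ → Submodule K V) (c d : ℤ) : ℤ → Submodule K V :=
  fun e => if c < e ∧ e < d then N e else M e

theorem splice_out {e : ℤ} (he : e ≤ c ∨ d ≤ e) : splice M N c d e = M e :=
  if_neg (by omega)

theorem splice_mid (hNc : N c = M c) (hNd : N d = M d) {e : ℤ} (he : c ≤ e) (he' : e ≤ d) :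
    splice M N c d e = N e := by
  rcases eq_or_lt_of_le he with rfl | h1
  · rw [splice_out (Or.inl le_rfl), hNc]
  rcases eq_or_lt_of_le he' with rfl | h2
  · rw [splice_out (Or.inr le_rfl), hNd]
  exact if_pos ⟨h1, h2⟩

theorem splice_chain (h : ChainOn M a b) (hN : ChainOn N c d) (hNc : N c = M c)
    (hNd : N d = M d) : ChainOn (splice M N c d) a b := fun e h1 h2 => by
  by_cases he : c ≤ e ∧ e < d
  · rw [splice_mid hNc hNd he.1 (by omega), splice_mid hNc hNd (by omega) (by omega)]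
    exact hN e he.1 he.2
  · rw [splice_out (by omega), splice_out (by omega)]
    exact h e h1 h2

/-- A chain whose jumps are at least `β`, and a vector of level exactly `β`: a sorted chain through
their span. -/
theorem sorted_first_of {k : ℕ}
    (ih : ∀ (a : ℤ) (M : ℤ → Submodule K V), ChainOn M a (a + k) →
      F.Sep (M a) (M (a + k)) → ∃ N, ChainOn N a (a + k) ∧ N a = M a ∧ N (a + k) = M (a + k) ∧
        Incr F N a (a + k))
    (h : ChainOn M a (a + k + 1)) (hs : F.Sep (M a) (M (a + k + 1))) {β : ℤ}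
    (hβ : ∀ e, a ≤ e → e < a + k + 1 → β ≤ ChainOn.jumpAt F M e) {v : V}
    (hv : v ∈ M (a + k + 1)) (hv' : v ∉ M a ⊔ (M (a + k + 1) ⊓ F.Q (β + 1))) :
    ∃ N, ChainOn N a (a + k + 1) ∧ N a = M a ∧ N (a + k + 1) = M (a + k + 1) ∧
      Incr F N a (a + k + 1) ∧ N (a + 1) = M a ⊔ (K ∙ v) := by
  have hva : v ∉ M a := fun h' => hv' (mem_sup_left h')
  obtain ⟨N₁, hN₁, ha₁, hb₁, hv₁⟩ := insert_chain h (by omega) hv hva
  have hs₁ : F.Sep (N₁ a) (N₁ (a + k + 1)) := by rw [ha₁, hb₁]; exact hs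
  have hj : F.IsJump (M a) (M a ⊔ (K ∙ v)) β := by
    have hle : M a ⊔ (K ∙ v) ≤ M (a + k + 1) :=
      sup_le (h.le le_rfl (by omega) le_rfl) ((span_singleton_le_iff_mem _ _).2 hv)
    refine ⟨fun hle' => hva ?_, fun x hx => ?_⟩
    · have h1 := h.eq_sup_of_split hs (b := β) (c := a + k + 1) (by omega) le_rfl hβ
        (fun e h2 h3 => by omega)
      have hv2 := hv
      rw [h1] at hv2
      obtain ⟨u, hu, q, hq, huq⟩ := mem_sup.1 hv2
      have hqm : q ∈ M a := hle' ⟨by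
        rw [eq_sub_of_add_eq' huq]
        exact sub_mem (mem_sup_right (mem_span_singleton_self v)) (mem_sup_left hu), hq.2⟩
      rw [← huq]; exact add_mem hu hqm
    · have hxb := hle hx.1
      obtain ⟨u, hu, y, hy, huy⟩ := mem_sup.1 hx.1
      obtain ⟨t, rfl⟩ := mem_span_singleton.1 hy
      rcases eq_or_ne t 0 with rfl | ht
      · rw [zero_smul, add_zero] at huy; exact huy ▸ hu
      · refine absurd ?_ hv'
        rw [← smul_mem_iff _ ht, eq_sub_of_add_eq' huy]
        exact sub_mem (mem_sup_right ⟨hxb, hx.2⟩) (mem_sup_left hu)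
  have hcv : ChainOn N₁ (a + 1) (a + 1 + k) := fun e h1 h2 => hN₁ e (by omega) (by omega)
  have hak : a + 1 + (k : ℤ) = a + k + 1 := by ring
  obtain ⟨N₂, hN₂, ha₂, hb₂, hi₂⟩ := ih (a + 1) N₁ hcv (hs₁.mono
    (hN₁.le le_rfl (by omega) (by omega)) (le_of_eq (congrArg N₁ hak)))
  have hN := splice_chain hN₁ hN₂ ha₂ hb₂
  set P := splice N₁ N₂ (a + 1) (a + 1 + k) with hP
  have hPa : P a = M a := by rw [hP, splice_out (Or.inl (by omega)), ha₁]
  have hP1 : P (a + 1) = M a ⊔ (K ∙ v) := by rw [hP, splice_out (Or.inl le_rfl), hv₁]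
  have hPb : P (a + k + 1) = M (a + k + 1) := by rw [hP, splice_out (Or.inr (by omega)), hb₁]
  have hsP : F.Sep (P a) (P (a + k + 1)) := by rw [hPa, hPb]; exact hs
  refine ⟨P, hN, hPa, hPb, fun e h1 h2 => ?_, hP1⟩
  rcases eq_or_lt_of_le (show a + 1 ≤ e by omega) with rfl | h3
  · rw [show a + 1 - 1 = a by ring]
    have hja : ChainOn.jumpAt F P a = β := by
      rw [ChainOn.jumpAt, hPa, hP1]; exact hj.jump_eq
    rw [hja]
    have h4 := hN.inJumps_of_jump hsP (c := a + 1) (by omega) h2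
    rw [hPa, hPb] at h4
    obtain ⟨e', h5, h6, h7⟩ := h.exists_jump_of_inJumps hs (by omega) h4
    refine lt_of_le_of_ne ?_ ?_
    · rw [← h7]; exact hβ e' h5 h6
    · rw [← hja]
      exact hN.jump_ne_of_lt hsP le_rfl (by omega) h2
  · have heq : ∀ x, a + 1 ≤ x → x < a + k + 1 →
        ChainOn.jumpAt F P x = ChainOn.jumpAt F N₂ x := fun x h1 h2 => by
      rw [ChainOn.jumpAt, ChainOn.jumpAt, hP, splice_mid ha₂ hb₂ h1 (by omega),
        splice_mid ha₂ hb₂ (by omega) (by omega)]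
    rw [heq _ (by omega) (by omega), heq _ (by omega) h2]
    exact hi₂ e h3 (by omega)

/-- Every interval has a sorted chain. -/
theorem exists_incr : ∀ (k : ℕ) (a : ℤ) (M : ℤ → Submodule K V), ChainOn M a (a + k) →
    F.Sep (M a) (M (a + k)) → ∃ N, ChainOn N a (a + k) ∧ N a = M a ∧ N (a + k) = M (a + k) ∧
      Incr F N a (a + k) := by
  intro k
  induction k with
  | zero => exact fun a M h _ => ⟨M, h, rfl, rfl, fun e h1 h2 => by omega⟩
  | succ k ih =>
    intro a M h hs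
    have hk : a + ((k + 1 : ℕ) : ℤ) = a + k + 1 := by push_cast; ring
    rw [hk] at h hs ⊢
    obtain ⟨e₀, he₀, hmin⟩ := Finset.exists_min_image (Finset.Ico a (a + k + 1))
      (ChainOn.jumpAt F M) ⟨a, Finset.mem_Ico.2 ⟨le_rfl, by omega⟩⟩
    rw [Finset.mem_Ico] at he₀
    obtain ⟨w, hw, hw'⟩ := exists_general h hs he₀.1 he₀.2
    obtain ⟨N, hN, ha, hb, hi, -⟩ := sorted_first_of ih h hs
      (β := ChainOn.jumpAt F M e₀) (fun e h1 h2 => hmin e (Finset.mem_Ico.2 ⟨h1, h2⟩)) hw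
      fun h' => hw' (sup_le_sup (h.le le_rfl he₀.1 (by omega)) le_rfl h')
    exact ⟨N, hN, ha, hb, hi⟩

/-- A sorted chain through the span of the bottom and a vector of lowest level. -/
theorem exists_incr_through (h : ChainOn M a b) (hs : F.Sep (M a) (M b)) (hi : Incr F M a b)
    (hab : a < b) {v : V} (hv : v ∈ M b)
    (hv' : v ∉ M a ⊔ (M b ⊓ F.Q (ChainOn.jumpAt F M a + 1))) :
    ∃ N, ChainOn N a b ∧ N a = M a ∧ N b = M b ∧ Incr F N a b ∧ N (a + 1) = M a ⊔ (K ∙ v) := by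
  obtain ⟨k, hk⟩ := Int.le.dest (show a + 1 ≤ b by omega)
  obtain rfl : b = a + k + 1 := by omega
  exact sorted_first_of (exists_incr k) h hs (fun e h1 h2 => hi.le le_rfl h1 h2) hv hv'

/-! ### Sorted flags with fixed positions. -/

variable {x₀ : ℤ → Submodule K V} {p r : ℤ} {D : Finset ℤ}

theorem mem_freePos {e : ℤ} : e ∈ freePos p r D ↔ (p < e ∧ e < r) ∧ e ∉ D := by
  rw [freePos, Finset.mem_sdiff, Finset.mem_Ioo]

/-- Consecutive fixed positions. -/
structure IsGap (p r : ℤ) (D : Finset ℤ) (a b : ℤ) : Prop where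
  hpa : p ≤ a
  hab : a < b
  hbr : b ≤ r
  fixa : a = p ∨ a ∈ D
  fixb : b = r ∨ b ∈ D
  free : ∀ e, a < e → e < b → e ∈ freePos p r D

theorem exists_gap {c : ℤ} (hc : c ∈ freePos p r D) :
    ∃ a b, IsGap p r D a b ∧ a < c ∧ c < b := by
  obtain ⟨⟨h1, h2⟩, h3⟩ := mem_freePos.1 hc
  obtain ⟨a, ⟨⟨ha1, ha2⟩, ha3⟩, hmax⟩ := Int.exists_greatest_of_bdd
    (P := fun e => (p ≤ e ∧ e < c) ∧ (e = p ∨ e ∈ D))
    ⟨c, fun z hz => hz.1.2.le⟩ ⟨p, ⟨le_rfl, h1⟩, Or.inl rfl⟩
  obtain ⟨b, ⟨⟨hb1, hb2⟩, hb3⟩, hmin⟩ := Int.exists_least_of_bdd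
    (P := fun e => (c < e ∧ e ≤ r) ∧ (e = r ∨ e ∈ D))
    ⟨c, fun z hz => hz.1.1.le⟩ ⟨r, ⟨h2, le_rfl⟩, Or.inl rfl⟩
  refine ⟨a, b, ⟨ha1, ha2.trans hb1, hb2, ha3, hb3, fun e he he' =>
    mem_freePos.2 ⟨⟨by omega, by omega⟩, fun hD => ?_⟩⟩, ha2, hb1⟩
  rcases lt_trichotomy e c with h | h | h
  · have := hmax e ⟨⟨by omega, h⟩, Or.inr hD⟩; omega
  · exact h3 (h ▸ hD)
  · have := hmin e ⟨⟨h, by omega⟩, Or.inr hD⟩; omega

theorem IsGap.eq_left (g : IsGap p r D a b) (M : OppFlag F x₀ p r D) : M.1 a = x₀ a := by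
  rcases g.fixa with h | h
  · rw [h]; exact M.2.2.1
  · exact M.2.2.2.2.1 a h

theorem IsGap.eq_right (g : IsGap p r D a b) (M : OppFlag F x₀ p r D) : M.1 b = x₀ b := by
  rcases g.fixb with h | h
  · rw [h]; exact M.2.2.2.1
  · exact M.2.2.2.2.1 b h

theorem IsGap.incr (g : IsGap p r D a b) (h : SortedOn F M p r D) : Incr F M a b :=
  fun e h1 h2 => h e (g.free e h1 h2)

theorem sep_flag (M : OppFlag F x₀ p r D) (hs : F.Sep (x₀ p) (x₀ r)) : F.Sep (M.1 p) (M.1 r) := by
  rw [M.2.2.1, M.2.2.2.1]; exact hs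

/-- The hypotheses on the base chain. -/
structure Base (F : Filt K V) (x₀ : ℤ → Submodule K V) (p r : ℤ) (D : Finset ℤ) : Prop where
  chain : ChainOn x₀ p r
  sep : F.Sep (x₀ p) (x₀ r)
  sorted : SortedOn F x₀ p r D

/-- The base chain as a flag. -/
def Base.flag (B : Base F x₀ p r D) : OppFlag F x₀ p r D :=
  ⟨x₀, B.chain, rfl, rfl, fun _ _ => rfl, B.sorted⟩

theorem Base.of_flag (B : Base F x₀ p r D) (x₁ : OppFlag F x₀ p r D) {c : ℤ} :
    Base F x₁.1 p r (insert c D) :=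
  ⟨x₁.2.1, sep_flag x₁ B.sep, fun e he => x₁.2.2.2.2.2 e (mem_freePos.2
    ⟨(mem_freePos.1 he).1, fun h => (mem_freePos.1 he).2 (Finset.mem_insert_of_mem h)⟩)⟩

theorem IsGap.jump_base (g : IsGap p r D a b) (B : Base F x₀ p r D) (M : OppFlag F x₀ p r D)
    {e : ℤ} (he : a ≤ e) (he' : e < b) :
    ChainOn.jumpAt F M.1 e = ChainOn.jumpAt F x₀ e :=
  jump_eq (M.2.1.sub g.hpa g.hbr) (B.chain.sub g.hpa g.hbr)
    (M.2.1.sep_sub (sep_flag M B.sep) g.hpa g.hab.le g.hbr) (g.eq_left M).symm (g.eq_right M).symm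
    (g.incr M.2.2.2.2.2) (g.incr B.sorted) he he'

/-- A flag for one more fixed position is a flag. -/
noncomputable def Base.lower (B : Base F x₀ p r D) (x₁ : OppFlag F x₀ p r D) {c : ℤ}
    (hc : c ∈ freePos p r D) (M : OppFlag F x₁.1 p r (insert c D)) :
    OppFlag F x₀ p r D := by
  refine ⟨M.1, M.2.1, M.2.2.1.trans x₁.2.2.1, M.2.2.2.1.trans x₁.2.2.2.1,
    fun e he => (M.2.2.2.2.1 e (Finset.mem_insert_of_mem he)).trans (x₁.2.2.2.2.1 e he),
    fun e he => ?_⟩
  by_cases hec : e = c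
  · subst hec
    obtain ⟨a, b, g, hac, hcb⟩ := exists_gap he
    have hM : M.1 a = x₁.1 a ∧ M.1 b = x₁.1 b ∧ M.1 e = x₁.1 e := by
      refine ⟨?_, ?_, M.2.2.2.2.1 e (Finset.mem_insert_self e D)⟩
      · rcases g.fixa with h | h
        · rw [h]; exact M.2.2.1
        · exact M.2.2.2.2.1 a (Finset.mem_insert_of_mem h)
      · rcases g.fixb with h | h
        · rw [h]; exact M.2.2.2.1
        · exact M.2.2.2.2.1 b (Finset.mem_insert_of_mem h)
    obtain ⟨hMa, hMb, hMc⟩ := hM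
    have hiM : ∀ {u w : ℤ}, a ≤ u → w ≤ b → (w ≤ e ∨ e ≤ u) → Incr F M.1 u w :=
      fun hu hw hsep x h1 h2 => M.2.2.2.2.2 x (mem_freePos.2
        ⟨(mem_freePos.1 (g.free x (by omega) (by omega))).1, fun h => by
          rcases Finset.mem_insert.1 h with h | h
          · omega
          · exact (mem_freePos.1 (g.free x (by omega) (by omega))).2 h⟩)
    have hsx := sep_flag x₁ B.sep
    have hsM : F.Sep (M.1 p) (M.1 r) := sep_flag M hsx
    have h1 : ChainOn.jumpAt F M.1 (e - 1) = ChainOn.jumpAt F x₁.1 (e - 1) :=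
      jump_eq (M.2.1.sub g.hpa (hcb.le.trans g.hbr)) (x₁.2.1.sub g.hpa (hcb.le.trans g.hbr))
        (M.2.1.sep_sub hsM g.hpa hac.le (hcb.le.trans g.hbr)) hMa.symm hMc.symm
        (hiM le_rfl hcb.le (Or.inl le_rfl)) ((g.incr x₁.2.2.2.2.2).sub le_rfl hcb.le)
        (by omega) (by omega)
    have h2 : ChainOn.jumpAt F M.1 e = ChainOn.jumpAt F x₁.1 e :=
      jump_eq (M.2.1.sub (g.hpa.trans hac.le) g.hbr) (x₁.2.1.sub (g.hpa.trans hac.le) g.hbr)
        (M.2.1.sep_sub hsM (g.hpa.trans hac.le) hcb.le g.hbr) hMc.symm hMb.symm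
        (hiM hac.le le_rfl (Or.inr le_rfl)) ((g.incr x₁.2.2.2.2.2).sub hac.le le_rfl)
        le_rfl hcb
    rw [h1, h2]
    exact x₁.2.2.2.2.2 e he
  · exact M.2.2.2.2.2 e (mem_freePos.2 ⟨(mem_freePos.1 he).1, fun h => by
      rcases Finset.mem_insert.1 h with h | h
      · exact hec h
      · exact (mem_freePos.1 he).2 h⟩)

theorem Base.lower_val (B : Base F x₀ p r D) (x₁ : OppFlag F x₀ p r D) {c : ℤ}
    (hc : c ∈ freePos p r D) (M : OppFlag F x₁.1 p r (insert c D)) :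
    (B.lower x₁ hc M).1 = M.1 := rfl

/-- The vectors which are not general for a subspace at a position of a gap. -/
noncomputable def bad (F : Filt K V) (x₀ : ℤ → Submodule K V) (b c : ℤ) (U : Submodule K V) :
    Submodule K V :=
  U ⊔ (x₀ b ⊓ F.Q (ChainOn.jumpAt F x₀ c + 1))

theorem IsGap.bad_proper (g : IsGap p r D a b) (B : Base F x₀ p r D) (M : OppFlag F x₀ p r D)
    {c : ℤ} (hc : a ≤ c) (hc' : c < b) : ∃ w ∈ x₀ b, w ∉ bad F x₀ b c (M.1 c) := by
  obtain ⟨w, hw, hw'⟩ := exists_general (M.2.1.sub g.hpa g.hbr)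
    (M.2.1.sep_sub (sep_flag M B.sep) g.hpa g.hab.le g.hbr) hc hc'
  rw [g.eq_right M, g.jump_base B M hc hc'] at hw'
  exact ⟨w, g.eq_right M ▸ hw, hw'⟩

/-- A flag through a subspace gives one through its span with a general vector, changed only
between them. -/
theorem IsGap.push (g : IsGap p r D a b) (B : Base F x₀ p r D) (M : OppFlag F x₀ p r D) {c : ℤ}
    (hc : a ≤ c) (hc' : c < b) {v : V} (hv : v ∈ x₀ b) (hv' : v ∉ bad F x₀ b c (M.1 c)) :
    ∃ M' : OppFlag F x₀ p r D, M'.1 (c + 1) = M.1 c ⊔ (K ∙ v) ∧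
      ∀ e, (e ≤ c ∨ b ≤ e ∨ v ∈ M.1 e) → M'.1 e = M.1 e := by
  have hsM := sep_flag M B.sep
  have hvb : v ∈ M.1 b := by rw [g.eq_right M]; exact hv
  have hvc : v ∉ M.1 c := fun h => hv' (mem_sup_left h)
  obtain ⟨f, ⟨hfc, hfv⟩, hmin⟩ := Int.exists_least_of_bdd (P := fun e => c ≤ e ∧ v ∈ M.1 e)
    ⟨c, fun z hz => hz.1⟩ ⟨b, hc'.le, hvb⟩
  have hfb : f ≤ b := hmin b ⟨hc'.le, hvb⟩
  have hcf : c < f := lt_of_le_of_ne hfc fun he => hvc (he ▸ hfv)
  have hch : ChainOn M.1 c f := M.2.1.sub (g.hpa.trans hc) (hfb.trans g.hbr)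
  have hsep := M.2.1.sep_sub hsM (g.hpa.trans hc) hfc (hfb.trans g.hbr)
  have hiM := g.incr M.2.2.2.2.2
  obtain ⟨N, hN, hNc, hNf, hNi, hN1⟩ := exists_incr_through hch hsep (hiM.sub hc hfb) hcf hfv
    fun h => hv' (by
      rw [bad, ← g.jump_base B M hc hc', ← g.eq_right M]
      exact sup_le_sup le_rfl (inf_le_inf_right _
        (M.2.1.le ((g.hpa.trans hc).trans hfc) hfb g.hbr)) h)
  have hP := splice_chain M.2.1 hN hNc hNf
  have hjump : ∀ e, ChainOn.jumpAt F (splice M.1 N c f) e = ChainOn.jumpAt F M.1 e := by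
    intro e
    rw [ChainOn.jumpAt, ChainOn.jumpAt]
    by_cases he : c ≤ e ∧ e < f
    · rw [splice_mid hNc hNf he.1 (by omega), splice_mid hNc hNf (by omega) (by omega)]
      exact (jump_eq hch hN hsep hNc hNf (hiM.sub hc hfb) hNi he.1 he.2).symm
    · rw [splice_out (by omega), splice_out (by omega)]
  refine ⟨⟨splice M.1 N c f, hP, ?_, ?_, fun e he => ?_, fun e he => ?_⟩, ?_, fun e he => ?_⟩
  · rw [splice_out (Or.inl (g.hpa.trans hc))]; exact M.2.2.1
  · rw [splice_out (Or.inr (hfb.trans g.hbr))]; exact M.2.2.2.1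
  · rw [splice_out ?_]
    · exact M.2.2.2.2.1 e he
    · by_contra hcon
      exact (mem_freePos.1 (g.free e (by omega) (by omega))).2 he
  · rw [hjump, hjump]; exact M.2.2.2.2.2 e he
  · show splice M.1 N c f (c + 1) = _
    rw [splice_mid hNc hNf (by omega) (by omega), hN1]
  · show splice M.1 N c f e = _
    refine splice_out ?_
    by_contra hcon
    rcases he with h | h | h
    · omega
    · omega
    · have := hmin e ⟨by omega, h⟩; omega

end Vale.Agent.P067.Link
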