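import Vale.Agent.P067.Link.Clear
import Vale.Agent.P067.Link.Sorted

/-! Small cycles of the complexes of sorted flags bound small chains below the top dimension. -/

namespace Vale.Agent.P067.Link

open Submodule

variable {K V : Type} [Field K] [AddCommGroup V] [Module K V]

/-- A vertex: a position and a subspace. -/
abbrev Vert (K V : Type) [Field K] [AddCommGroup V] [Module K V] : Type := ℤ × Submodule K V

/-- The faces: sets of vertices of one flag at free positions. -/
def Real (F : Filt K V) (x₀ : ℤ → Submodule K V) (p r : ℤ) (D : Finset ℤ)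
    (s : Finset (Vert K V)) : Prop :=
  ∃ M : OppFlag F x₀ p r D, ∀ v ∈ s, v.1 ∈ freePos p r D ∧ M.1 v.1 = v.2

theorem Real.mono {F : Filt K V} {x₀ : ℤ → Submodule K V} {p r : ℤ} {D : Finset ℤ}
    {s t : Finset (Vert K V)} (h : Real F x₀ p r D s) (hts : t ⊆ s) : Real F x₀ p r D t :=
  let ⟨M, hM⟩ := h
  ⟨M, fun v hv => hM v (hts hv)⟩

theorem freePos_insert (p r c : ℤ) (D : Finset ℤ) :
    freePos p r (insert c D) = (freePos p r D).erase c := by
  ext e
  simp only [mem_freePos, Finset.mem_erase, Finset.mem_insert]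
  tauto

/-- A general vector of a subspace. -/
theorem exists_avoid {q : ℕ} [Fact q.Prime] {V : Type} [AddCommGroup V] [Module (ZMod q) V]
    (Y : Submodule (ZMod q) V) {ι : Type} (s : Finset ι) (G : ι → Submodule (ZMod q) V)
    (h : ∀ i ∈ s, ∃ w ∈ Y, w ∉ G i) (hq : s.card < q) : ∃ v ∈ Y, ∀ i ∈ s, v ∉ G i := by
  classical
  have hlt := Submodule.iUnion_ssubset_of_forall_ne_top_of_card_lt (Finset.univ : Finset s)
    (fun i => (G i.1).comap Y.subtype) (fun i hi => by
      obtain ⟨w, hw, hw'⟩ := h i.1 i.2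
      have : (⟨w, hw⟩ : Y) ∈ (G i.1).comap Y.subtype := hi ▸ mem_top
      exact hw' this)
    (by
      rw [ENat.card_eq_coe_fintype_card, ZMod.card, Finset.card_univ, Fintype.card_coe]
      exact_mod_cast hq)
  obtain ⟨v, hv⟩ := (Set.ne_univ_iff_exists_notMem _).1 hlt.ne
  simp only [Finset.mem_univ, Set.iUnion_true, Set.mem_iUnion, not_exists, SetLike.mem_coe,
    mem_comap] at hv
  exact ⟨v.1, v.2, fun i hi => hv ⟨i, hi⟩⟩

/-- Cycles with at most `N` faces of `j` vertices bound chains with at most `B` faces, for all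
complexes with `k` free positions over large fields. -/
def FillStmt (k j : ℕ) : Prop :=
  ∀ N : ℕ, ∃ B P : ℕ, ∀ q : ℕ, ∀ _ : Fact q.Prime, P ≤ q →
    ∀ (V : Type) (_ : AddCommGroup V) (_ : Module (ZMod q) V) (F : Filt (ZMod q) V)
      (x₀ : ℤ → Submodule (ZMod q) V) (p r : ℤ) (D : Finset ℤ),
      Base F x₀ p r D → (freePos p r D).card = k →
      ∀ z : Ch (Vert (ZMod q) V), Carried (Real F x₀ p r D) j z → bd z = 0 →
        z.support.card ≤ N →
        ∃ w, Carried (Real F x₀ p r D) (j + 1) w ∧ bd w = z ∧ w.support.card ≤ B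

/-- All small cycles below the top dimension bound. -/
theorem fill_all : ∀ k j : ℕ, j < k → FillStmt k j := by
  classical
  intro k
  induction k with
  | zero => intro j hj; omega
  | succ k ih =>
    intro j hj
    have hrem : ∀ N, ∃ B P : ℕ, 1 ≤ j → ∀ q : ℕ, ∀ _ : Fact q.Prime, P ≤ q →
        ∀ (V : Type) (_ : AddCommGroup V) (_ : Module (ZMod q) V) (F : Filt (ZMod q) V)
          (x₀ : ℤ → Submodule (ZMod q) V) (p r : ℤ) (D : Finset ℤ),
          Base F x₀ p r D → (freePos p r D).card = k →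
          ∀ z : Ch (Vert (ZMod q) V), Carried (Real F x₀ p r D) (j - 1) z → bd z = 0 →
            z.support.card ≤ N →
            ∃ w, Carried (Real F x₀ p r D) (j - 1 + 1) w ∧ bd w = z ∧ w.support.card ≤ B := by
      intro N
      by_cases h1 : 1 ≤ j
      · obtain ⟨B, P, h⟩ := ih (j - 1) (by omega) N
        exact ⟨B, P, fun _ => h⟩
      · exact ⟨0, 0, fun h => absurd h h1⟩
    choose g P₁ hg using hrem
    intro N
    set n₁ := j * N
    set N₁ := grow g n₁ N with hN₁
    set n₂ := j * N₁ with hn₂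
    set N₂ := grow id n₂ N₁ with hN₂
    refine ⟨N₁ + N₂ + N₂, (Finset.range n₁).sup (fun i => P₁ (grow g i N)) + n₂ + 2, ?_⟩
    intro q _ hq V _ _ F x₀ p r D B hk z hz hbd hN
    obtain ⟨c₀, hc₀⟩ := Finset.card_pos.1 (show 0 < (freePos p r D).card by omega)
    obtain ⟨a, b, gap, hac₀, hc₀b⟩ := exists_gap hc₀
    set Rl := Real F x₀ p r D with hRl
    -- the vertices at the top position of the gap
    set B₁ := (verts z).filter fun v => v.1 = b - 1 with hB₁
    obtain ⟨w₁, hw₁, hw₁n, hz₁, hbd₁, hn₁', hQ₁⟩ :=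
      clear (Rl := Rl) (j := j) (Q := fun v => v.1 ≠ b - 1) (B₀ := B₁) g n₁ N
      (by
        intro i hi B' z' hne hsub hz' hbd' hN' hv'
        obtain ⟨U, hU⟩ := hne
        refine ⟨U, hU, ?_⟩
        rcases eq_or_ne (lk U z') 0 with h0 | h0
        · exact ⟨0, fun s hs => by simp at hs, by rw [h0, map_zero], fun s hs => by simp at hs,
            by simp⟩
        obtain ⟨t₀, ht₀⟩ := Finsupp.support_nonempty_iff.2 h0
        obtain ⟨hUt₀, ht₀z⟩ := mem_lk ht₀
        obtain ⟨⟨x₁, hx₁⟩, hcard⟩ := hz' _ ht₀z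
        obtain ⟨hUfree, hxU⟩ := hx₁ U (Finset.mem_insert_self U t₀)
        rw [Finset.card_insert_of_notMem hUt₀] at hcard
        have hk' : (freePos p r (insert U.1 D)).card = k := by
          rw [freePos_insert, Finset.card_erase_of_mem hUfree, hk]; omega
        have hlk : Carried (Real F x₁.1 p r (insert U.1 D)) (j - 1) (lk U z') := by
          intro t ht
          obtain ⟨hUt, htz⟩ := mem_lk ht
          obtain ⟨⟨M, hM⟩, hc⟩ := hz' _ htz
          rw [Finset.card_insert_of_notMem hUt] at hc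
          refine ⟨⟨⟨M.1, M.2.1, M.2.2.1.trans x₁.2.2.1.symm, M.2.2.2.1.trans x₁.2.2.2.1.symm,
            fun e he => ?_, fun e he => M.2.2.2.2.2 e ?_⟩, fun v hv => ?_⟩, by omega⟩
          · rcases Finset.mem_insert.1 he with rfl | he
            · rw [(hM U (Finset.mem_insert_self U t)).2, hxU]
            · rw [M.2.2.2.2.1 e he, x₁.2.2.2.2.1 e he]
          · rw [freePos_insert] at he
            exact Finset.mem_of_mem_erase he
          · obtain ⟨h1, h2⟩ := hM v (Finset.mem_insert_of_mem hv)
            refine ⟨?_, h2⟩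
            rw [freePos_insert]
            refine Finset.mem_erase.2 ⟨fun he => hUt ?_, h1⟩
            have h3 : v = U := Prod.ext he (by
              rw [← h2, he, (hM U (Finset.mem_insert_self U t)).2])
            exact h3 ▸ hv
        have hP : P₁ (grow g i N) ≤ q := by
          have := Finset.le_sup (f := fun i => P₁ (grow g i N)) (Finset.mem_range.2 hi)
          omega
        obtain ⟨e, he, hebd, hen⟩ := hg _ (by omega) q inferInstance hP V _ _ F x₁.1 p r
          (insert U.1 D) (B.of_flag x₁) hk' _ hlk (by rw [← lk_bd, hbd', map_zero])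
          ((card_lk U z').trans hN')
        have hfree : ∀ s ∈ e.support, Rl (insert U s) ∧
            ∀ v ∈ s, v.1 ≠ U.1 := by
          intro s hs
          obtain ⟨⟨M, hM⟩, -⟩ := he s hs
          have hne : ∀ v ∈ s, v.1 ∈ freePos p r D ∧ v.1 ≠ U.1 := fun v hv => by
            have := (hM v hv).1
            rw [freePos_insert, Finset.mem_erase] at this
            exact ⟨this.2, this.1⟩
          refine ⟨⟨B.lower x₁ hUfree M, fun v hv => ?_⟩, fun v hv => (hne v hv).2⟩
          rw [B.lower_val]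
          rcases Finset.mem_insert.1 hv with rfl | hv
          · exact ⟨hUfree, (M.2.2.2.2.1 _ (Finset.mem_insert_self _ D)).trans hxU⟩
          · exact ⟨(hne v hv).1, (hM v hv).2⟩
        refine ⟨e, fun s hs => ⟨(hfree s hs).1.mono (Finset.subset_insert _ _),
          by rw [(he s hs).2]; omega⟩, hebd, fun s hs => ⟨(hfree s hs).1, fun v hv => Or.inr ?_⟩,
          hen⟩
        have hUb : U.1 = b - 1 := (Finset.mem_filter.1 (hsub hU)).2
        rw [← hUb]
        exact (hfree s hs).2 v hv)
      B₁ z ((Finset.card_filter_le _ _).trans ((card_verts hz).trans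
        (Nat.mul_le_mul_left j hN))) subset_rfl hz hbd hN
      (fun s hs v hv => by
        by_cases h : v.1 = b - 1
        · exact Or.inl (Finset.mem_filter.2 ⟨mem_verts.2 ⟨s, hs, hv⟩, h⟩)
        · exact Or.inr h)
    set z₁ := z + bd w₁ with hz₁def
    -- a general vector
    set G := (verts z₁).filter fun v => a < v.1 ∧ v.1 < b with hG
    have hGn : G.card ≤ n₂ := (Finset.card_filter_le _ _).trans ((card_verts hz₁).trans
      (Nat.mul_le_mul_left j hn₁'))
    obtain ⟨x, hx, hxgen⟩ := exists_avoid (x₀ b) (insert (a, x₀ a) G)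
      (fun v => bad F x₀ b v.1 v.2)
      (fun v hv => by
        rcases Finset.mem_insert.1 hv with rfl | hv
        · exact gap.bad_proper B B.flag le_rfl gap.hab
        · obtain ⟨hv, h1, h2⟩ := Finset.mem_filter.1 hv
          obtain ⟨s, hs, hvs⟩ := mem_verts.1 hv
          obtain ⟨⟨M, hM⟩, -⟩ := hz₁ s hs
          rw [← (hM v hvs).2]
          exact gap.bad_proper B M h1.le h2)
      (lt_of_le_of_lt (Finset.card_insert_le _ _) (by omega))
    -- replace the vertices of the gap which miss it
    set Q₂ : Vert (ZMod q) V → Prop := fun v => ¬ (a < v.1 ∧ v.1 < b) ∨ x ∈ v.2 with hQ₂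
    obtain ⟨w₂, hw₂, hw₂n, hz₂, hbd₂, hn₂', hQ₂'⟩ :=
      clear (Rl := Rl) (j := j) (Q := Q₂) (B₀ := G.filter fun v => x ∉ v.2) id n₂ N₁
      (by
        intro i _ B' z' hne hsub hz' hbd' hN' hv'
        obtain ⟨U, hU, hmax⟩ := Finset.exists_max_image B' (fun v => v.1) hne
        obtain ⟨hUG, hUx⟩ := Finset.mem_filter.1 (hsub hU)
        obtain ⟨hUv, hUa, hUb⟩ := Finset.mem_filter.1 hUG
        obtain ⟨s₁, hs₁, hUs₁⟩ := mem_verts.1 hUv
        have hUb' : U.1 + 1 < b := by have := hQ₁ s₁ hs₁ U hUs₁; omega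
        have hgen := hxgen U (Finset.mem_insert_of_mem hUG)
        set y : Vert (ZMod q) V := (U.1 + 1, U.2 ⊔ (ZMod q) ∙ x) with hy
        have key : ∀ t ∈ (lk U z').support, U ∉ t ∧ t.card + 1 = j ∧
            Rl (insert U (insert y t)) ∧ ∀ v ∈ insert y t, v ∈ B'.erase U ∨ Q₂ v := by
          intro t ht
          obtain ⟨hUt, htz⟩ := mem_lk ht
          obtain ⟨⟨M, hM⟩, hc⟩ := hz' _ htz
          rw [Finset.card_insert_of_notMem hUt] at hc
          have hverts : ∀ v ∈ t, v ∈ B'.erase U ∨ Q₂ v := fun v hv =>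
            (hv' _ htz v (Finset.mem_insert_of_mem hv)).imp_left fun h =>
              Finset.mem_erase.2 ⟨fun hvU => hUt (hvU ▸ hv), h⟩
          obtain ⟨hUfree, hMU⟩ := hM U (Finset.mem_insert_self U t)
          rw [← hMU] at hgen
          obtain ⟨M', hM'1, hM'⟩ := gap.push B M hUa.le hUb hx hgen
          refine ⟨hUt, hc, ⟨M', fun v hv => ?_⟩, fun v hv => ?_⟩
          · rcases Finset.mem_insert.1 hv with rfl | hv
            · exact ⟨hUfree, (hM' _ (Or.inl le_rfl)).trans hMU⟩
            rcases Finset.mem_insert.1 hv with rfl | hv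
            · exact ⟨gap.free (U.1 + 1) (by omega) hUb', by rw [hy, hM'1, hMU]⟩
            obtain ⟨hvfree, hvM⟩ := hM v (Finset.mem_insert_of_mem hv)
            refine ⟨hvfree, (hM' _ ?_).trans hvM⟩
            rcases hverts v hv with h | h | h
            · exact Or.inl (hmax v (Finset.mem_of_mem_erase h))
            · omega
            · exact Or.inr (Or.inr (hvM ▸ h))
          · rcases Finset.mem_insert.1 hv with rfl | hv
            · exact Or.inr (Or.inr (mem_sup_right (mem_span_singleton_self x)))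
            · exact hverts v hv
        refine ⟨U, hU, cn y (lk U z'), fun s hs => ?_, ?_, fun s hs => ?_, ?_⟩
        · obtain ⟨t, ht, hyt, rfl⟩ := mem_cn hs
          obtain ⟨-, hc, hreal, -⟩ := key t ht
          exact ⟨hreal.mono (Finset.subset_insert _ _),
            by rw [Finset.card_insert_of_notMem hyt, hc]⟩
        · rw [bd_cn, ← lk_bd, hbd', map_zero, map_zero, add_zero]
        · obtain ⟨t, ht, -, rfl⟩ := mem_cn hs
          obtain ⟨-, -, hreal, hvs⟩ := key t ht
          exact ⟨hreal, hvs⟩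
        · exact ((card_cn _ _).trans (card_lk _ _)).trans hN')
      (G.filter fun v => x ∉ v.2) z₁ ((Finset.card_filter_le _ _).trans hGn) subset_rfl hz₁ hbd₁
      hn₁'
      (fun s hs v hv => by
        by_cases h : (a < v.1 ∧ v.1 < b) ∧ x ∉ v.2
        · exact Or.inl (Finset.mem_filter.2 ⟨Finset.mem_filter.2
            ⟨mem_verts.2 ⟨s, hs, hv⟩, h.1⟩, h.2⟩)
        · exact Or.inr (not_and_or.1 h |>.imp_right not_not.1))
    set z₂ := z₁ + bd w₂ with hz₂def
    -- the cone
    set y₀ : Vert (ZMod q) V := (a + 1, x₀ a ⊔ (ZMod q) ∙ x) with hy₀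
    refine ⟨cn y₀ z₂ + (w₁ + w₂), fun s hs => ?_, ?_, ?_⟩
    · rcases Finset.mem_union.1 (Finsupp.support_add hs) with h | h
      · obtain ⟨t, ht, hyt, rfl⟩ := mem_cn h
        obtain ⟨⟨M, hM⟩, hc⟩ := hz₂ t ht
        refine ⟨?_, by rw [Finset.card_insert_of_notMem hyt, hc]⟩
        have hgen := hxgen (a, x₀ a) (Finset.mem_insert_self _ _)
        rw [← gap.eq_left M] at hgen
        obtain ⟨M', hM'1, hM'⟩ := gap.push B M le_rfl gap.hab hx hgen
        refine ⟨M', fun v hv => ?_⟩
        rcases Finset.mem_insert.1 hv with rfl | hv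
        · exact ⟨gap.free (a + 1) (by omega) (by omega), by rw [hy₀, hM'1, gap.eq_left M]⟩
        obtain ⟨hvfree, hvM⟩ := hM v hv
        refine ⟨hvfree, (hM' _ ?_).trans hvM⟩
        rcases hQ₂' t ht v hv with h | h
        · omega
        · exact Or.inr (Or.inr (hvM ▸ h))
      · rcases Finset.mem_union.1 (Finsupp.support_add h) with h | h
        · exact hw₁ s h
        · exact hw₂ s h
    · rw [map_add, bd_cn, hbd₂, map_zero, add_zero, map_add, hz₂def, hz₁def]
      rw [show z + bd w₁ + bd w₂ + (bd w₁ + bd w₂) = z + (bd w₁ + bd w₁) + (bd w₂ + bd w₂) by abel,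
        add_self_ch, add_self_ch, add_zero, add_zero]
    · have h1 := card_support_add (cn y₀ z₂) (w₁ + w₂)
      have h2 := card_support_add w₁ w₂
      have h3 := (card_cn y₀ z₂).trans hn₂'
      omega

end Vale.Agent.P067.Link
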