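import Vale.Agent.P067.Z.Final
import Vale.Agent.P067.Link.Reduce

/-! The link expansion from M3 and the bridge to the group. -/

namespace Vale.Agent.P067

theorem residueContractStatement_of (hopp : OppStatement) (hb : BridgeStatement) :
    ResidueContractStatement := by
  intro n
  obtain ⟨C, P, h⟩ := residue_contract hopp hb n
  refine ⟨C, P, fun p hp hPp S hS => (h p hp hPp S hS).transfer id id (fun t ht => ⟨ht, rfl⟩)
    (fun t ht => ⟨ht, rfl⟩) id id (fun U _ a b hr => ?_) (fun U _ a b hr => ?_)
    (fun U _ a => ?_)⟩
  · rw [Finset.image_id]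
    exact fun t ht => hr t (Finset.mem_union_right S ht)
  · rw [Finset.image_id]
    intro t ht
    rcases Finset.mem_union.1 ht with h | h
    · exact (a⁻¹ * b).2 t h
    · exact hr t h
  · show a⁻¹ * a ∈ (K n p (S ∪ U)).subgroupOf (K n p S)
    rw [inv_mul_cancel]
    exact one_mem _

theorem linkStatement_of (hopp : OppStatement) (hb : BridgeStatement) : LinkStatement :=
  linkStatement_of_contract (residueContractStatement_of hopp hb)

end Vale.Agent.P067
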