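import Vale.Agent.P067.Link.Fill

/-! Contractions of bounded size of the complexes of sorted flags below the top dimension. -/

namespace Vale.Agent.P067.Link

variable {W : Type*}

/-- The linear extension of a map from faces to chains. -/
noncomputable def ext (Φ : Finset W → Ch W) : Ch W →ₗ[ZMod 2] Ch W :=
  Finsupp.linearCombination (ZMod 2) Φ

theorem ext_single (Φ : Finset W → Ch W) (s : Finset W) : ext Φ (Finsupp.single s 1) = Φ s := by
  rw [ext, Finsupp.linearCombination_single, one_smul]

theorem ext_congr {Φ Ψ : Finset W → Ch W} {a : Ch W} (h : ∀ s ∈ a.support, Φ s = Ψ s) :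
    ext Φ a = ext Ψ a := by
  rw [hom_eq_sum (ext Φ) a, hom_eq_sum (ext Ψ) a]
  exact Finset.sum_congr rfl fun s hs => by rw [ext_single, ext_single, h s hs]

theorem mem_bd_single [DecidableEq W] {s t : Finset W}
    (h : t ∈ (bd (Finsupp.single s (1 : ZMod 2))).support) : ∃ v ∈ s, t = s.erase v := by
  classical
  rw [bd_single] at h
  obtain ⟨v, hv, hv'⟩ := Finset.mem_biUnion.1 (Finsupp.support_finsetSum h)
  refine ⟨v, hv, ?_⟩
  rw [Finset.mem_singleton.1 (Finsupp.support_single_subset hv')]
  ext; simp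

theorem card_bd_single (s : Finset W) :
    (bd (Finsupp.single s (1 : ZMod 2))).support.card ≤ s.card := by
  classical
  rw [bd_single]
  refine (Finset.card_le_card Finsupp.support_finsetSum).trans
    (Finset.card_biUnion_le.trans ((Finset.sum_le_sum fun v _ => ?_).trans
      (Finset.card_eq_sum_ones _).ge))
  exact (Finset.card_le_card Finsupp.support_single_subset).trans (by simp)

theorem card_ext {Φ : Finset W → Ch W} {a : Ch W} {B : ℕ}
    (h : ∀ s ∈ a.support, (Φ s).support.card ≤ B) :
    (ext Φ a).support.card ≤ a.support.card * B := by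
  classical
  rw [hom_eq_sum (ext Φ) a]
  refine (Finset.card_le_card Finsupp.support_finsetSum).trans
    (Finset.card_biUnion_le.trans ((Finset.sum_le_sum fun s hs => ?_).trans
      (by rw [Finset.sum_const, smul_eq_mul])))
  rw [ext_single]
  exact h s hs

/-- Contractions on the faces with fewer than `i` vertices, at most `B` faces each. -/
def PhiStmt (k i : ℕ) : Prop :=
  ∃ B P : ℕ, ∀ q : ℕ, ∀ _ : Fact q.Prime, P ≤ q →
    ∀ (V : Type) (_ : AddCommGroup V) (_ : Module (ZMod q) V) (F : Filt (ZMod q) V)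
      (x₀ : ℤ → Submodule (ZMod q) V) (p r : ℤ) (D : Finset ℤ),
      Base F x₀ p r D → (freePos p r D).card = k →
      ∃ Φ : Finset (Vert (ZMod q) V) → Ch (Vert (ZMod q) V),
        ∀ s, Real F x₀ p r D s → s.card < i →
          Carried (Real F x₀ p r D) (s.card + 1) (Φ s) ∧ (Φ s).support.card ≤ B ∧
          bd (Φ s) = Finsupp.single s 1 + ext Φ (bd (Finsupp.single s 1))

theorem phi_all (k : ℕ) : ∀ i ≤ k, PhiStmt k i := by
  intro i
  induction i with
  | zero =>
    exact fun _ => ⟨0, 0, fun q _ _ V _ _ F x₀ p r D _ _ => ⟨fun _ => 0, fun s _ h => by omega⟩⟩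
  | succ i ih =>
    intro hi
    obtain ⟨B, P, hB⟩ := ih (by omega)
    obtain ⟨B', P', hB'⟩ := fill_all k i (by omega) (1 + i * B)
    refine ⟨B + B', P + P', fun q hq hPq V _ _ F x₀ p r D hb hk => ?_⟩
    classical
    obtain ⟨Φ, hΦ⟩ := hB q hq (by omega) V _ _ F x₀ p r D hb hk
    -- the cycle of a face
    have key : ∀ s, Real F x₀ p r D s → s.card = i →
        ∃ w, Carried (Real F x₀ p r D) (i + 1) w ∧
          bd w = Finsupp.single s 1 + ext Φ (bd (Finsupp.single s 1)) ∧ w.support.card ≤ B' := by
      intro s hs hsi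
      have hsub : ∀ t ∈ (bd (Finsupp.single s (1 : ZMod 2))).support,
          Real F x₀ p r D t ∧ t.card + 1 = i := by
        intro t ht
        obtain ⟨v, hv, rfl⟩ := mem_bd_single ht
        refine ⟨hs.mono (Finset.erase_subset v s), ?_⟩
        rw [Finset.card_erase_of_mem hv]
        have := Finset.card_pos.2 ⟨v, hv⟩
        omega
      refine hB' q hq (by omega) V _ _ F x₀ p r D hb hk _ ?_ ?_ ?_
      · intro t ht
        rcases Finset.mem_union.1 (Finsupp.support_add ht) with h | h
        · rw [Finset.mem_singleton.1 (Finsupp.support_single_subset h)]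
          exact ⟨hs, hsi⟩
        · obtain ⟨u, hu, h⟩ := support_hom_subset h
          rw [ext_single] at h
          obtain ⟨h1, h2⟩ := hsub u hu
          obtain ⟨h3, h4⟩ := (hΦ u h1 (by omega)).1 t h
          exact ⟨h3, by omega⟩
      · have hL : bd (ext Φ (bd (Finsupp.single s (1 : ZMod 2)))) =
            bd (Finsupp.single s 1) + ext Φ (bd (bd (Finsupp.single s 1))) := by
          generalize bd (Finsupp.single s (1 : ZMod 2)) = a at hsub ⊢
          conv_rhs => rw [ch_eq_sum a]
          rw [hom_eq_sum (ext Φ) a]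
          simp only [map_sum, ← Finset.sum_add_distrib]
          refine Finset.sum_congr rfl fun t ht => ?_
          rw [ext_single]
          exact (hΦ t (hsub t ht).1 (by have := (hsub t ht).2; omega)).2.2
        rw [map_add, hL, bd_bd, map_zero, add_zero, add_self_ch]
      · refine (card_support_add _ _).trans (add_le_add ?_ ?_)
        · exact (Finset.card_le_card Finsupp.support_single_subset).trans (by simp)
        · refine (card_ext fun t ht => (hΦ t (hsub t ht).1
            (by have := (hsub t ht).2; omega)).2.1).trans (Nat.mul_le_mul_right B ?_)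
          exact (card_bd_single s).trans hsi.le
    choose w hw using key
    refine ⟨fun s => if h : Real F x₀ p r D s ∧ s.card = i then w s h.1 h.2 else Φ s,
      fun s hs hlt => ?_⟩
    have hcongr : ext (fun s => if h : Real F x₀ p r D s ∧ s.card = i then w s h.1 h.2 else Φ s)
        (bd (Finsupp.single s 1)) = ext Φ (bd (Finsupp.single s 1)) := by
      refine ext_congr fun t ht => dif_neg fun h => ?_
      obtain ⟨v, hv, rfl⟩ := mem_bd_single ht
      have h2 := h.2
      rw [Finset.card_erase_of_mem hv] at h2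
      have := Finset.card_pos.2 ⟨v, hv⟩
      omega
    rw [hcongr]
    by_cases hsi : s.card = i
    · simp only [dif_pos (And.intro hs hsi)]
      obtain ⟨h1, h2, h3⟩ := hw s hs hsi
      exact ⟨hsi.symm ▸ h1, by omega, h2⟩
    · simp only [dif_neg fun h : Real F x₀ p r D s ∧ s.card = i => hsi h.2]
      obtain ⟨h1, h2, h3⟩ := hΦ s hs (by omega)
      exact ⟨h1, by omega, h3⟩

variable {K V : Type} [Field K] [AddCommGroup V] [Module K V] {F : Filt K V}
  {x₀ : ℤ → Submodule K V} {p r : ℤ} {D : Finset ℤ}

open Classical in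
/-- The face of a flag at a set of positions. -/
noncomputable def face (S : Finset ℤ) (M : OppFlag F x₀ p r D) : Finset (Vert K V) :=
  S.image fun c => (c, M.1 c)

theorem mem_face {S : Finset ℤ} {M : OppFlag F x₀ p r D} {v : Vert K V} :
    v ∈ face S M ↔ v.1 ∈ S ∧ M.1 v.1 = v.2 := by
  classical
  simp only [face, Finset.mem_image]
  exact ⟨fun ⟨c, hc, he⟩ => he ▸ ⟨hc, rfl⟩, fun ⟨h1, h2⟩ => ⟨v.1, h1, Prod.ext rfl h2⟩⟩

theorem face_congr {S : Finset ℤ} {M N : OppFlag F x₀ p r D} (h : ∀ c ∈ S, M.1 c = N.1 c) :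
    face S M = face S N := by
  ext v
  rw [mem_face, mem_face]
  exact ⟨fun ⟨h1, h2⟩ => ⟨h1, by rw [← h _ h1, h2]⟩, fun ⟨h1, h2⟩ => ⟨h1, by rw [h _ h1, h2]⟩⟩

theorem card_face (S : Finset ℤ) (M : OppFlag F x₀ p r D) : (face S M).card = S.card := by
  classical
  exact Finset.card_image_of_injective _ fun a b h => congrArg Prod.fst h

theorem real_face {S : Finset ℤ} (hS : S ⊆ freePos p r D) (M : OppFlag F x₀ p r D) :
    Real F x₀ p r D (face S M) :=
  ⟨M, fun _ hv => ⟨hS (mem_face.1 hv).1, (mem_face.1 hv).2⟩⟩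

theorem face_erase [DecidableEq (Vert K V)] (S : Finset ℤ) (M : OppFlag F x₀ p r D) (c : ℤ) :
    (face S M).erase (c, M.1 c) = face (S.erase c) M := by
  ext v
  simp only [Finset.mem_erase, mem_face]
  constructor
  · rintro ⟨h1, h2, h3⟩
    exact ⟨⟨fun hc => h1 (Prod.ext hc (by rw [← h3, hc])), h2⟩, h3⟩
  · rintro ⟨⟨h1, h2⟩, h3⟩
    exact ⟨fun hv => h1 (congrArg Prod.fst hv), h2, h3⟩

theorem bd_face (S : Finset ℤ) (M : OppFlag F x₀ p r D) :
    bd (Finsupp.single (face S M) (1 : ZMod 2)) =
      ∑ c ∈ S, Finsupp.single (face (S.erase c) M) 1 := by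
  classical
  rw [bd_single]
  conv_lhs => arg 1; rw [face]
  rw [Finset.sum_image fun a _ b _ h => congrArg Prod.fst h]
  exact Finset.sum_congr rfl fun c _ => congrArg (Finsupp.single · 1) (by ext v; rw [← face_erase S M c]; simp only [Finset.mem_erase])

/-- The positions of a face. -/
def types (t : Finset (Vert K V)) : Finset ℤ := t.image Prod.fst

theorem types_face (S : Finset ℤ) (M : OppFlag F x₀ p r D) : types (face S M) = S := by
  ext c
  simp only [types, Finset.mem_image, mem_face]
  exact ⟨fun ⟨v, ⟨h, _⟩, e⟩ => e ▸ h, fun h => ⟨(c, M.1 c), ⟨h, rfl⟩, rfl⟩⟩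

open Classical in
/-- A flag through a face. -/
noncomputable def wit (B : Base F x₀ p r D) (t : Finset (Vert K V)) : OppFlag F x₀ p r D :=
  if h : Real F x₀ p r D t then h.choose else B.flag

theorem face_wit (B : Base F x₀ p r D) {t : Finset (Vert K V)} (ht : Real F x₀ p r D t) :
    face (types t) (wit B t) = t ∧ types t ⊆ freePos p r D := by
  classical
  have hw : ∀ v ∈ t, v.1 ∈ freePos p r D ∧ (wit B t).1 v.1 = v.2 := by
    rw [wit, dif_pos ht]; exact ht.choose_spec
  refine ⟨?_, fun c hc => ?_⟩
  · ext v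
    rw [mem_face, types, Finset.mem_image]
    refine ⟨fun ⟨⟨u, hu, he⟩, h2⟩ => ?_, fun hv => ⟨⟨v, hv, rfl⟩, (hw v hv).2⟩⟩
    have : u = v := Prod.ext he (by rw [← (hw u hu).2, he, h2])
    exact this ▸ hu
  · obtain ⟨v, hv, rfl⟩ := Finset.mem_image.1 hc
    exact (hw v hv).1

/-- The value of a cochain on a chain. -/
noncomputable def eval (B : Base F x₀ p r D) (f : Finset ℤ → OppFlag F x₀ p r D → ZMod 2) :
    Ch (Vert K V) →ₗ[ZMod 2] ZMod 2 :=
  Finsupp.linearCombination (ZMod 2) fun t => f (types t) (wit B t)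

theorem eval_single (B : Base F x₀ p r D) (f : Finset ℤ → OppFlag F x₀ p r D → ZMod 2)
    (t : Finset (Vert K V)) : eval B f (Finsupp.single t 1) = f (types t) (wit B t) := by
  rw [eval, Finsupp.linearCombination_single, one_smul]

theorem eval_face (B : Base F x₀ p r D) {f : Finset ℤ → OppFlag F x₀ p r D → ZMod 2}
    (hf : Invariant (oppRel F x₀ p r D) f) {S : Finset ℤ} (hS : S ⊆ freePos p r D)
    (M : OppFlag F x₀ p r D) : eval B f (Finsupp.single (face S M) 1) = f S M := by
  rw [eval, Finsupp.linearCombination_single, one_smul, types_face]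
  refine hf S _ _ fun c hc => ?_
  have h := (face_wit B (real_face hS M)).1
  rw [types_face] at h
  have h1 : (c, M.1 c) ∈ face S (wit B (face S M)) := by
    rw [h]; exact mem_face.2 ⟨hc, rfl⟩
  exact (mem_face.1 h1).2

open Classical in
/-- The lists of a contraction. -/
noncomputable def lists (B : Base F x₀ p r D) (Φ : Finset (Vert K V) → Ch (Vert K V))
    (S : Finset ℤ) (M : OppFlag F x₀ p r D) : List (Finset ℤ × OppFlag F x₀ p r D) :=
  if S ⊆ freePos p r D ∧ S.card < (freePos p r D).card then
    (Φ (face S M)).support.toList.map fun t => (types t, wit B t)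
  else []

theorem cone_lists (B : Base F x₀ p r D) (Φ : Finset (Vert K V) → Ch (Vert K V))
    (f : Finset ℤ → OppFlag F x₀ p r D → ZMod 2) {S : Finset ℤ} (hS : S ⊆ freePos p r D)
    (hc : S.card < (freePos p r D).card) (M : OppFlag F x₀ p r D) :
    cone (lists B Φ) f S M = eval B f (Φ (face S M)) := by
  rw [cone, lists, if_pos ⟨hS, hc⟩, List.map_map, Finset.sum_map_toList,
    hom_eq_sum (eval B f) (Φ (face S M))]
  exact Finset.sum_congr rfl fun t _ => by
    rw [eval, Finsupp.linearCombination_single, one_smul]; rfl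

theorem eval_delta (B : Base F x₀ p r D) {f : Finset ℤ → OppFlag F x₀ p r D → ZMod 2}
    (hf : Invariant (oppRel F x₀ p r D) f) {j : ℕ} {w : Ch (Vert K V)}
    (hw : Carried (Real F x₀ p r D) j w) : eval B (delta f) w = eval B f (bd w) := by
  rw [hom_eq_sum (eval B (delta f)) w,
    show eval B f (bd w) = ((eval B f).comp bd) w from rfl, hom_eq_sum ((eval B f).comp bd) w]
  refine Finset.sum_congr rfl fun t ht => ?_
  obtain ⟨h1, h2⟩ := face_wit B (hw t ht).1
  rw [LinearMap.comp_apply, eval_single]
  conv_rhs => rw [← h1]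
  rw [bd_face, map_sum]
  exact Finset.sum_congr rfl fun c _ =>
    (eval_face B hf ((Finset.erase_subset c _).trans h2) _).symm

/-- M3. -/
theorem opp_ok : OppStatement := by
  intro l
  have h : ∀ k, PhiStmt k k := fun k => phi_all k k le_rfl
  choose C P hC using h
  refine ⟨(Finset.range (l + 1)).sup C, (Finset.range (l + 1)).sup P,
    fun q hq hPq V _ _ F x₀ p D _ hch hsep hsort => ?_⟩
  have B : Base F x₀ p (p + l) D := ⟨hch, hsep, hsort⟩
  have hk : (freePos p (p + l) D).card < l + 1 := by
    have h1 : (freePos p (p + l) D).card ≤ (Finset.Ioo p (p + l)).card :=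
      Finset.card_le_card Finset.sdiff_subset
    rw [Int.card_Ioo] at h1
    omega
  have hkm : (freePos p (p + l) D).card ∈ Finset.range (l + 1) := Finset.mem_range.2 hk
  obtain ⟨Φ, hΦ⟩ := hC _ q hq ((Finset.le_sup (f := P) hkm).trans hPq) V _ _ F x₀ p (p + l) D B rfl
  refine ⟨lists B Φ, fun S M => ⟨?_, fun e he => ?_⟩, fun f _ S M N hMN => ?_,
    fun f hf S hS hc M => ?_⟩
  · rw [lists]
    split_ifs with h
    · rw [List.length_map, Finset.length_toList]
      exact (hΦ _ (real_face h.1 M) ((card_face S M).trans_lt h.2)).2.1.trans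
        (Finset.le_sup (f := C) hkm)
    · simp
  · rw [lists] at he
    split_ifs at he with h
    · obtain ⟨t, ht, rfl⟩ := List.mem_map.1 he
      obtain ⟨h1, h2⟩ := (hΦ _ (real_face h.1 M) ((card_face S M).trans_lt h.2)).1 t
        (Finset.mem_toList.1 ht)
      obtain ⟨h3, h4⟩ := face_wit B h1
      refine ⟨h4, ?_⟩
      rw [← card_face (types t) (wit B t), h3, h2, card_face]
    · simp at he
  · show cone (lists B Φ) f S M = cone (lists B Φ) f S N
    rw [cone, cone, lists, lists, face_congr hMN]
  · obtain ⟨h1, -, h3⟩ := hΦ _ (real_face hS M) ((card_face S M).trans_lt hc)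
    rw [cone_lists B Φ (delta f) hS hc M, eval_delta B hf h1, h3, map_add, eval_face B hf hS M,
      delta, bd_face, map_sum, map_sum]
    have hsum : ∑ c ∈ S, cone (lists B Φ) f (S.erase c) M =
        ∑ c ∈ S, eval B f (ext Φ (Finsupp.single (face (S.erase c) M) 1)) :=
      Finset.sum_congr rfl fun c _ => by
        rw [ext_single]
        exact cone_lists B Φ f ((Finset.erase_subset c S).trans hS)
          (lt_of_le_of_lt (Finset.card_le_card (Finset.erase_subset c S)) hc) M
    rw [hsum, add_left_comm, CharTwo.add_self_eq_zero, add_zero]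

end Vale.Agent.P067.Link
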